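import Mathlib

/-! Log-concavity in total-positivity form, preserved by adding a multiple of an exponential
variable (helper for row 280). -/

set_option autoImplicit false

open MeasureTheory Set
open scoped ENNReal

namespace Crest.Agent.R280

/-- Log-concavity in four-point form. -/
def LC (u : ℝ → ℝ≥0∞) : Prop :=
  ∀ p q r s : ℝ, p ≤ r → r ≤ q → p + q = r + s → u p * u q ≤ u r * u s

lemma LC.comp_mul {u : ℝ → ℝ≥0∞} (h : LC u) (c : ℝ) : LC (fun x => u (c * x)) := by
  intro p q r s hpr hrq hs
  rcases le_total 0 c with hc | hc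
  · exact h _ _ _ _ (mul_le_mul_of_nonneg_left hpr hc) (mul_le_mul_of_nonneg_left hrq hc)
      (by rw [← mul_add, ← mul_add, hs])
  · have := h (c * q) (c * p) (c * r) (c * s) (mul_le_mul_of_nonpos_left hrq hc)
      (mul_le_mul_of_nonpos_left hpr hc) (by rw [← mul_add, ← mul_add, ← hs, add_comm])
    simpa [mul_comm] using this

lemma LC.mul_exp {u : ℝ → ℝ≥0∞} (h : LC u) (c : ℝ) :
    LC (fun x => u x * ENNReal.ofReal (Real.exp (c * x))) := by
  intro p q r s hpr hrq hs
  have e : ENNReal.ofReal (Real.exp (c * p)) * ENNReal.ofReal (Real.exp (c * q)) =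
      ENNReal.ofReal (Real.exp (c * r)) * ENNReal.ofReal (Real.exp (c * s)) := by
    rw [← ENNReal.ofReal_mul (Real.exp_pos _).le, ← ENNReal.ofReal_mul (Real.exp_pos _).le,
      ← Real.exp_add, ← Real.exp_add, ← mul_add, ← mul_add, hs]
  calc u p * ENNReal.ofReal (Real.exp (c * p)) * (u q * ENNReal.ofReal (Real.exp (c * q)))
      = (u p * u q) * (ENNReal.ofReal (Real.exp (c * p)) * ENNReal.ofReal (Real.exp (c * q))) := by
        ring
    _ ≤ (u r * u s) * (ENNReal.ofReal (Real.exp (c * r)) * ENNReal.ofReal (Real.exp (c * s))) := by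
        rw [e]; exact mul_le_mul_left (h p q r s hpr hrq hs) _
    _ = _ := by ring

lemma lintegral_Ioi_shift (w : ℝ → ℝ≥0∞) (a d : ℝ) :
    ∫⁻ x in Ioi (a + d), w x = ∫⁻ x in Ioi a, w (x + d) := by
  have := (measurePreserving_add_right (volume : Measure ℝ) d).setLIntegral_comp_preimage_emb
    (MeasurableEquiv.addRight d).measurableEmbedding w (Ioi (a + d))
  rw [← this]
  congr 2
  ext x; simp

lemma lintegral_Ioc_shift (w : ℝ → ℝ≥0∞) (a b d : ℝ) :
    ∫⁻ x in Ioc (a + d) (b + d), w x = ∫⁻ x in Ioc a b, w (x + d) := by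
  have := (measurePreserving_add_right (volume : Measure ℝ) d).setLIntegral_comp_preimage_emb
    (MeasurableEquiv.addRight d).measurableEmbedding w (Ioc (a + d) (b + d))
  rw [← this]
  congr 2
  ext x; simp

lemma lintegral_Ioi_split (w : ℝ → ℝ≥0∞) {a b : ℝ} (hab : a ≤ b) :
    ∫⁻ x in Ioi a, w x = (∫⁻ x in Ioc a b, w x) + ∫⁻ x in Ioi b, w x := by
  rw [← lintegral_union measurableSet_Ioi (Ioc_disjoint_Ioi le_rfl), Ioc_union_Ioi_eq_Ioi hab]

lemma LC.tail {w : ℝ → ℝ≥0∞} (h : LC w) (hw : Measurable w) :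
    LC (fun τ => ∫⁻ x in Ioi τ, w x) := by
  intro p q r s hpr hrq hs
  have hsq : s ≤ q := by linarith
  set d := q - r with hd
  have hd0 : 0 ≤ d := by linarith
  have key : (∫⁻ x in Ioc p r, w x) * (∫⁻ x in Ioi q, w x) ≤
      (∫⁻ x in Ioi r, w x) * ∫⁻ x in Ioc s q, w x := by
    have e1 : q = r + d := by linarith
    have e2 : s = p + d := by linarith
    have hwd : Measurable fun x => w (x + d) := hw.comp (measurable_add_const d)
    calc (∫⁻ x in Ioc p r, w x) * (∫⁻ x in Ioi q, w x)
        = ∫⁻ x in Ioc p r, ∫⁻ y in Ioi r, w x * w (y + d) := by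
          rw [← lintegral_mul_const _ hw]
          refine lintegral_congr fun x => ?_
          rw [lintegral_const_mul _ hwd, e1, lintegral_Ioi_shift]
      _ ≤ ∫⁻ x in Ioc p r, ∫⁻ y in Ioi r, w y * w (x + d) := by
          refine setLIntegral_mono' measurableSet_Ioc fun x hx => ?_
          refine setLIntegral_mono' measurableSet_Ioi fun y hy => ?_
          exact h x (y + d) y (x + d) (hx.2.trans hy.out.le) (by linarith) (by ring)
      _ = (∫⁻ x in Ioi r, w x) * ∫⁻ x in Ioc s q, w x := by
          have : ∫⁻ x in Ioc s q, w x = ∫⁻ x in Ioc p r, w (x + d) := by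
            rw [← lintegral_Ioc_shift, ← e1, ← e2]
          rw [this, ← lintegral_const_mul _ hwd]
          refine lintegral_congr fun x => ?_
          rw [lintegral_mul_const _ hw]
  show (∫⁻ x in Ioi p, w x) * (∫⁻ x in Ioi q, w x) ≤ (∫⁻ x in Ioi r, w x) * ∫⁻ x in Ioi s, w x
  rw [lintegral_Ioi_split w hpr, lintegral_Ioi_split w hsq, add_mul, mul_add]
  gcongr

/-- The law of a mean-one exponential variable. -/
noncomputable def mu : Measure ℝ :=
  (volume.restrict (Ioi (0 : ℝ))).withDensity (fun x => ENNReal.ofReal (Real.exp (-x)))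

lemma meas_dens : Measurable fun x : ℝ => ENNReal.ofReal (Real.exp (-x)) := by fun_prop

lemma lintegral_mu {u : ℝ → ℝ≥0∞} (hu : Measurable u) :
    ∫⁻ x, u x ∂mu = ∫⁻ x in Ioi (0 : ℝ), u x * ENNReal.ofReal (Real.exp (-x)) := by
  rw [mu, lintegral_withDensity_eq_lintegral_mul _ meas_dens hu]
  refine lintegral_congr fun x => ?_
  simp [mul_comm]

instance : IsProbabilityMeasure mu := by
  constructor
  rw [mu, withDensity_apply _ MeasurableSet.univ, Measure.restrict_univ,
    ← ofReal_integral_eq_lintegral_ofReal]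
  · rw [integral_exp_neg_Ioi_zero]; simp
  · exact integrableOn_exp_neg_Ioi 0
  · exact Filter.Eventually.of_forall fun x => (Real.exp_pos _).le

lemma LC.conv {u : ℝ → ℝ≥0∞} (h : LC u) (hu : Measurable u) (a : ℝ) :
    LC (fun t => ∫⁻ x, u (t + a * x) ∂mu) := by
  rcases eq_or_ne a 0 with rfl | ha
  · simpa using h
  have h1 : LC (fun x => u (a * x) * ENNReal.ofReal (Real.exp (-1 * x))) :=
    (h.comp_mul a).mul_exp (-1)
  have hm : Measurable (fun x => u (a * x) * ENNReal.ofReal (Real.exp (-1 * x))) := by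
    fun_prop
  have h2 := ((h1.tail hm).mul_exp 1).comp_mul a⁻¹
  convert h2 using 2 with t
  have hut : Measurable fun x => u (t + a * x) := by fun_prop
  rw [lintegral_mu hut]
  have := lintegral_Ioi_shift (fun x => u (a * x) * ENNReal.ofReal (Real.exp (-1 * x))) 0 (a⁻¹ * t)
  rw [zero_add] at this
  rw [this, ← lintegral_mul_const]
  · refine lintegral_congr fun x => ?_
    rw [mul_assoc, ← ENNReal.ofReal_mul (Real.exp_pos _).le, ← Real.exp_add]
    congr 2
    · field_simp; ring
    · congr 1; ring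
  · fun_prop

/-- The product law of `N` independent exponentials. -/
noncomputable def PN (N : ℕ) : Measure (Fin N → ℝ) := Measure.pi fun _ => mu

instance (N : ℕ) : IsProbabilityMeasure (PN N) := by unfold PN; infer_instance

lemma LC.pi {u : ℝ → ℝ≥0∞} (h : LC u) (hu : Measurable u) (N : ℕ) (a : Fin N → ℝ) :
    LC (fun t => ∫⁻ x, u (t + ∑ i, a i * x i) ∂PN N) := by
  induction N with
  | zero => simpa using h
  | succ n ih =>
    have hm : Measurable fun t => ∫⁻ x, u (t + ∑ i, a (Fin.succ i) * x i) ∂PN n := by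
      apply Measurable.lintegral_prod_right
      fun_prop
    have := (ih (fun i => a i.succ)).conv hm (a 0)
    convert this using 2 with t
    have mp := (measurePreserving_piFinSuccAbove (fun _ : Fin (n + 1) => mu) 0).symm
    unfold PN
    rw [← mp.lintegral_comp (by fun_prop), lintegral_prod _ (by fun_prop)]
    refine lintegral_congr fun y => lintegral_congr fun x => ?_
    simp [MeasurableEquiv.piFinSuccAbove_symm_apply, Fin.insertNthEquiv, Fin.sum_univ_succ,
      add_assoc]

lemma LC_ofReal : LC ENNReal.ofReal := by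
  intro p q r s hpr hrq hs
  rcases le_or_gt p 0 with hp | hp
  · simp [ENNReal.ofReal_of_nonpos hp]
  · rw [← ENNReal.ofReal_mul hp.le, ← ENNReal.ofReal_mul (by linarith)]
    apply ENNReal.ofReal_le_ofReal
    have : s = p + q - r := by linarith
    subst this
    nlinarith [mul_nonneg (sub_nonneg.2 hpr) (sub_nonneg.2 hrq)]

end Crest.Agent.R280
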