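import Mathlib

/-! The one-variable comparison argument (helper for row 280). -/

set_option autoImplicit false

open MeasureTheory Set Filter Topology

namespace Crest.Agent.R280

lemma min_principle {u : ℝ → ℝ} {p q : ℝ} (hc : Continuous u) (hpos : ∀ x ∈ Icc p q, 0 < u x)
    (hmid : ∀ x h : ℝ, 0 ≤ h → u (x - h) * u (x + h) ≤ u x * u x) {x : ℝ} (hx : x ∈ Icc p q) :
    min (u p) (u q) ≤ u x := by
  obtain ⟨y, hy, hmin⟩ := (isCompact_Icc (a := p) (b := q)).exists_isMinOn ⟨x, hx⟩ hc.continuousOn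
  have hK : IsCompact (Icc p q ∩ {z | u z = u y}) :=
    isCompact_Icc.inter_right (isClosed_eq hc continuous_const)
  obtain ⟨z, ⟨hz, hzy⟩, hleast⟩ := hK.exists_isLeast ⟨y, hy, rfl⟩
  have hzy' : u z = u y := hzy
  have hyx : u y ≤ u x := hmin hx
  rcases eq_or_lt_of_le hz.1 with h1 | h1
  · rw [← h1] at hzy'; exact (min_le_left _ _).trans (hzy'.le.trans hyx)
  rcases eq_or_lt_of_le hz.2 with h2 | h2
  · rw [h2] at hzy'; exact (min_le_right _ _).trans (hzy'.le.trans hyx)
  exfalso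
  set h := min (z - p) (q - z) with hh
  have hh0 : 0 < h := lt_min (by linarith) (by linarith)
  have ha : h ≤ z - p := min_le_left _ _
  have hb : h ≤ q - z := min_le_right _ _
  have m1 : z - h ∈ Icc p q := ⟨by linarith, by linarith⟩
  have m2 : z + h ∈ Icc p q := ⟨by linarith, by linarith⟩
  have g1 : u y < u (z - h) := by
    refine lt_of_le_of_ne (hmin m1) fun e => ?_
    have := hleast ⟨m1, e.symm⟩
    linarith
  have g2 : u y ≤ u (z + h) := hmin m2
  have := hmid z h hh0.le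
  rw [hzy'] at this
  have hy0 := hpos y hy
  nlinarith

/-- The hypotheses on the function `t ↦ E (t + S)₊`. -/
structure Good (L : ℝ → ℝ) : Prop where
  cont : Continuous L
  mono : Monotone L
  nonneg : ∀ t, 0 ≤ L t
  ge : ∀ t, t ≤ L t
  mid : ∀ x h : ℝ, 0 ≤ h → L (x - h) * L (x + h) ≤ L x * L x

/-- The comparison function. -/
noncomputable def Eb (b t : ℝ) : ℝ := b * Real.exp (t / b - 1)

lemma Good.tilt {L : ℝ → ℝ} (hL : Good L) (α β : ℝ) {p q x : ℝ} (hp : 0 < L p) (hx : x ∈ Icc p q) :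
    min (L p * Real.exp (α * p + β)) (L q * Real.exp (α * q + β)) ≤ L x * Real.exp (α * x + β) := by
  have := hL.cont
  refine min_principle (u := fun s => L s * Real.exp (α * s + β)) (by fun_prop) ?_ ?_ hx
  · intro y hy
    exact mul_pos (hp.trans_le (hL.mono hy.1)) (Real.exp_pos _)
  · intro y h hh
    have e : Real.exp (α * (y - h) + β) * Real.exp (α * (y + h) + β) =
        Real.exp (α * y + β) * Real.exp (α * y + β) := by
      rw [← Real.exp_add, ← Real.exp_add]; congr 1; ring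
    calc L (y - h) * Real.exp (α * (y - h) + β) * (L (y + h) * Real.exp (α * (y + h) + β))
        = (L (y - h) * L (y + h)) * (Real.exp (α * (y - h) + β) * Real.exp (α * (y + h) + β)) := by
          ring
      _ ≤ (L y * L y) * (Real.exp (α * y + β) * Real.exp (α * y + β)) := by
          rw [e]; exact mul_le_mul_of_nonneg_right (hL.mid y h hh) (by positivity)
      _ = _ := by ring

lemma Eb_mul {b : ℝ} (t : ℝ) : Eb b t * Real.exp (-b⁻¹ * t + 1) = b := by
  unfold Eb
  rw [mul_assoc, ← Real.exp_add]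
  have : t / b - 1 + (-b⁻¹ * t + 1) = 0 := by ring
  rw [this]; simp

lemma Eb_pos {b : ℝ} (hb : 0 < b) (t : ℝ) : 0 < Eb b t := by unfold Eb; positivity

lemma Good.lower {L : ℝ → ℝ} (hL : Good L) {b θ t : ℝ} (hb : 0 < b) (hθ : Eb b θ ≤ L θ)
    (ht : t ∈ Icc θ b) : Eb b t ≤ L t := by
  have h := hL.tilt (-b⁻¹) 1 ((Eb_pos hb θ).trans_le hθ) ht
  have h1 : b ≤ L θ * Real.exp (-b⁻¹ * θ + 1) := by
    calc b = Eb b θ * Real.exp (-b⁻¹ * θ + 1) := (Eb_mul θ).symm
      _ ≤ _ := by gcongr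
  have h2 : b ≤ L b * Real.exp (-b⁻¹ * b + 1) := by
    have : -b⁻¹ * b + 1 = 0 := by field_simp; ring
    rw [this]; simpa using hL.ge b
  have h3 : Eb b t * Real.exp (-b⁻¹ * t + 1) ≤ L t * Real.exp (-b⁻¹ * t + 1) := by
    rw [Eb_mul]; exact (le_min h1 h2).trans h
  exact le_of_mul_le_mul_right h3 (Real.exp_pos _)

lemma Good.upper {L : ℝ → ℝ} (hL : Good L) {b θ t : ℝ} (hb : 0 < b) (hθb : θ < b)
    (hθ : L θ ≤ Eb b θ) (ht : t ≤ θ) : L t ≤ Eb b t := by
  by_contra hcon
  push Not at hcon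
  have hE := Eb_pos hb t
  set ρ := L t / Eb b t with hρ
  have hρ1 : 1 < ρ := (one_lt_div hE).2 hcon
  have hlog : 0 < Real.log ρ := Real.log_pos hρ1
  set κ := Real.log ρ / (b - t) with hκ
  have hbt : 0 < b - t := by linarith
  have hκ0 : 0 < κ := div_pos hlog hbt
  have h := hL.tilt (-b⁻¹ + κ) (1 - κ * t) (hE.trans hcon) (x := θ) (q := b) ⟨ht, hθb.le⟩
  have h1 : L t * Real.exp ((-b⁻¹ + κ) * t + (1 - κ * t)) = b * ρ := by
    have : (-b⁻¹ + κ) * t + (1 - κ * t) = -b⁻¹ * t + 1 := by ring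
    rw [this]
    have e := Eb_mul (b := b) t
    have : L t = ρ * Eb b t := by rw [hρ]; field_simp
    rw [this, mul_assoc, e, mul_comm]
  have h2 : b * ρ ≤ L b * Real.exp ((-b⁻¹ + κ) * b + (1 - κ * t)) := by
    have : (-b⁻¹ + κ) * b + (1 - κ * t) = Real.log ρ := by
      rw [hκ]; field_simp; ring
    rw [this, Real.exp_log (by linarith)]
    exact mul_le_mul_of_nonneg_right (hL.ge b) (by linarith)
  have h3 : L θ * Real.exp ((-b⁻¹ + κ) * θ + (1 - κ * t)) < b * ρ := by
    have e1 : (-b⁻¹ + κ) * θ + (1 - κ * t) = (-b⁻¹ * θ + 1) + κ * (θ - t) := by ring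
    have e2 : κ * (θ - t) < Real.log ρ := by
      have : Real.log ρ = κ * (b - t) := by rw [hκ]; field_simp
      rw [this]; exact mul_lt_mul_of_pos_left (by linarith) hκ0
    calc L θ * Real.exp ((-b⁻¹ + κ) * θ + (1 - κ * t))
        ≤ Eb b θ * Real.exp ((-b⁻¹ + κ) * θ + (1 - κ * t)) := by gcongr
      _ = b * Real.exp (κ * (θ - t)) := by rw [e1, Real.exp_add, ← mul_assoc, Eb_mul]
      _ < b * Real.exp (Real.log ρ) := by gcongr
      _ = b * ρ := by rw [Real.exp_log (by linarith)]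
  rw [h1] at h
  have := (le_min le_rfl h2).trans h
  linarith

/-- The second derivative of the weight. -/
noncomputable def kk (τ : ℝ) : ℝ := (τ - 1) * Real.exp (-τ)

lemma tends_lin_exp {c : ℝ} (hc : 0 < c) (α β : ℝ) :
    Tendsto (fun τ : ℝ => (α * τ + β) * Real.exp (-c * τ)) atTop (𝓝 0) := by
  have h1 : Tendsto (fun τ : ℝ => c * τ) atTop atTop := tendsto_id.const_mul_atTop hc
  have h2 := (Real.tendsto_pow_mul_exp_neg_atTop_nhds_zero 1).comp h1
  have h3 := (Real.tendsto_pow_mul_exp_neg_atTop_nhds_zero 0).comp h1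
  have h4 := (h2.const_mul (α / c)).add (h3.const_mul β)
  simp only [mul_zero, add_zero] at h4
  refine h4.congr fun τ => ?_
  simp only [Function.comp, pow_one, pow_zero, one_mul, neg_mul]
  field_simp

lemma integrableOn_lin_exp {c : ℝ} (hc : 0 < c) (α β a : ℝ) :
    IntegrableOn (fun τ : ℝ => (α * τ + β) * Real.exp (-c * τ)) (Ioi a) := by
  have h1 : IntegrableOn (fun τ : ℝ => Real.exp (-c * τ)) (Ioi a) := exp_neg_integrableOn_Ioi a hc
  have h2 : IntegrableOn (fun τ : ℝ => (τ - a) * Real.exp (-c * τ)) (Ioi a) := by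
    refine integrableOn_Ioi_deriv_of_nonneg' (g := fun τ => (-(1 / c) * τ + (a / c - 1 / c ^ 2)) *
      Real.exp (-c * τ)) (l := 0) ?_ ?_ (tends_lin_exp hc _ _)
    · intro x _
      have := (((hasDerivAt_id x).const_mul (-(1 / c))).add_const (a / c - 1 / c ^ 2)).mul
        (((hasDerivAt_id x).const_mul (-c)).exp)
      refine HasDerivAt.congr_deriv this ?_
      simp only [id]; field_simp; ring
    · intro x hx
      exact mul_nonneg (sub_nonneg.2 hx.out.le) (Real.exp_pos _).le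
  have := (h2.const_mul α).add (h1.const_mul (β + α * a))
  refine IntegrableOn.congr_fun this (fun x _ => ?_) measurableSet_Ioi
  simp only [Pi.add_apply]; ring

lemma integral_lin_exp {c : ℝ} (hc : 0 < c) (α β a : ℝ) :
    ∫ τ in Ioi a, (α * τ + β) * Real.exp (-c * τ) =
      ((α * a + β) / c + α / c ^ 2) * Real.exp (-c * a) := by
  have := integral_Ioi_of_hasDerivAt_of_tendsto' (a := a)
    (f := fun τ => (-(α / c) * τ + (-β / c - α / c ^ 2)) * Real.exp (-c * τ))
    (f' := fun τ => (α * τ + β) * Real.exp (-c * τ)) (m := 0) ?_ (integrableOn_lin_exp hc α β a)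
    (tends_lin_exp hc _ _)
  · rw [this]; field_simp; ring
  · intro x _
    have := (((hasDerivAt_id x).const_mul (-(α / c))).add_const (-β / c - α / c ^ 2)).mul
      (((hasDerivAt_id x).const_mul (-c)).exp)
    refine HasDerivAt.congr_deriv this ?_
    simp only [id]; field_simp; ring

lemma integrableOn_kk (a : ℝ) : IntegrableOn kk (Ioi a) := by
  have := integrableOn_lin_exp one_pos 1 (-1) a
  refine this.congr_fun (fun x _ => ?_) measurableSet_Ioi
  simp [kk, sub_eq_add_neg]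

lemma integral_kk_lin (y a : ℝ) :
    ∫ τ in (0 : ℝ)..a, kk τ * (y - τ) =
      (y - a) * (-a * Real.exp (-a)) + (1 + a) * Real.exp (-a) - 1 := by
  have := intervalIntegral.integral_eq_sub_of_hasDerivAt (a := 0) (b := a)
    (f := fun τ => (y - τ) * (-τ * Real.exp (-τ)) + (1 + τ) * Real.exp (-τ))
    (f' := fun τ => kk τ * (y - τ)) ?_ ?_
  · rw [this]; simp
  · intro x _
    have e := (hasDerivAt_neg x).exp
    have := ((((hasDerivAt_id x).const_sub y)).mul ((hasDerivAt_neg x).mul e)).add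
      (((hasDerivAt_id x).const_add 1).mul e)
    refine HasDerivAt.congr_deriv this ?_
    simp only [id, kk, Pi.mul_apply]; ring
  · apply Continuous.intervalIntegrable
    unfold kk; fun_prop

lemma Good.integrable {L : ℝ → ℝ} (hL : Good L) :
    IntegrableOn (fun τ => kk τ * L (4 / 3 - τ)) (Ioi 0) := by
  have := hL.cont
  refine Integrable.mul_bdd (c := L (4 / 3)) (integrableOn_kk 0) (by fun_prop) ?_
  refine (ae_restrict_iff' measurableSet_Ioi).2 (Eventually.of_forall fun x hx => ?_)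
  rw [Real.norm_eq_abs, abs_of_nonneg (hL.nonneg _)]
  exact hL.mono (by linarith [hx.out])

lemma Good.bound {L : ℝ → ℝ} (hL : Good L) {b a : ℝ} (hb : 0 < b) (ha0 : 0 ≤ a) (ha1 : a ≤ 1)
    (h : ∀ τ, a < τ → kk τ * L (4 / 3 - τ) ≤ kk τ * Eb b (4 / 3 - τ)) :
    ∫ τ in Ioi 0, kk τ * L (4 / 3 - τ) ≤
      (4 / 3 - a) * (-a * Real.exp (-a)) + (1 + a) * Real.exp (-a) - 1 +
        b * Real.exp (4 / 3 / b - 1) *
          (((a - 1) / (1 + b⁻¹) + 1 / (1 + b⁻¹) ^ 2) * Real.exp (-(1 + b⁻¹) * a)) := by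
  have hi := hL.integrable
  have hc : 0 < 1 + b⁻¹ := by positivity
  rw [← Ioc_union_Ioi_eq_Ioi ha0] at hi ⊢
  rw [setIntegral_union (Ioc_disjoint_Ioi le_rfl) measurableSet_Ioi
    (hi.mono_set subset_union_left) (hi.mono_set subset_union_right)]
  apply add_le_add
  · rw [← integral_kk_lin, intervalIntegral.integral_of_le ha0]
    refine setIntegral_mono_on (hi.mono_set subset_union_left) ?_ measurableSet_Ioc ?_
    · apply Continuous.integrableOn_Ioc
      unfold kk; fun_prop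
    · intro τ hτ
      refine mul_le_mul_of_nonpos_left (hL.ge _) ?_
      exact mul_nonpos_of_nonpos_of_nonneg (by linarith [hτ.2]) (Real.exp_pos _).le
  · have e := integral_lin_exp hc 1 (-1) a
    have e' : ((1 * a + -1) / (1 + b⁻¹) + 1 / (1 + b⁻¹) ^ 2) =
      ((a - 1) / (1 + b⁻¹) + 1 / (1 + b⁻¹) ^ 2) := by ring
    rw [e'] at e
    rw [← e, ← integral_const_mul]
    refine setIntegral_mono_on (hi.mono_set subset_union_right)
      ((integrableOn_lin_exp hc 1 (-1) a).const_mul _) measurableSet_Ioi ?_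
    intro τ hτ
    refine (h τ hτ).trans (le_of_eq ?_)
    unfold kk Eb
    have : Real.exp (-τ) * Real.exp ((4 / 3 - τ) / b - 1) =
        Real.exp (4 / 3 / b - 1) * Real.exp (-(1 + b⁻¹) * τ) := by
      rw [← Real.exp_add, ← Real.exp_add]; congr 1; ring
    linear_combination (τ - 1) * b * this

lemma exp_third_le : Real.exp (-(1 / 3)) ≤ 18 / 25 := by
  have h := Real.quadratic_le_exp_of_nonneg (x := 1 / 3) (by norm_num)
  rw [Real.exp_neg, inv_le_comm₀ (Real.exp_pos _) (by norm_num)]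
  linarith

lemma kk_nonneg {τ : ℝ} (h : 1 ≤ τ) : 0 ≤ kk τ :=
  mul_nonneg (by linarith) (Real.exp_pos _).le

lemma kk_nonpos {τ : ℝ} (h : τ ≤ 1) : kk τ ≤ 0 :=
  mul_nonpos_of_nonpos_of_nonneg (by linarith) (Real.exp_pos _).le

theorem Good.main {L : ℝ → ℝ} (hL : Good L) :
    ∫ τ in Ioi 0, kk τ * L (4 / 3 - τ) ≤ -(4 / 9 * Real.exp (-(1 / 3))) := by
  have hx := exp_third_le
  have hx0 := Real.exp_pos (-(1 / 3))
  rcases le_total (L (1 / 3)) (Eb 1 (1 / 3)) with h | h
  · refine (hL.bound (b := 1) (a := 1) one_pos zero_le_one le_rfl fun τ hτ => ?_).trans ?_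
    · exact mul_le_mul_of_nonneg_left (hL.upper one_pos (by norm_num) h (by linarith))
        (kk_nonneg hτ.le)
    · set x := Real.exp (-(1 / 3)) with hxdef
      have e1 : Real.exp (-1) = x ^ 3 := by
        rw [hxdef, ← Real.exp_nat_mul]; norm_num
      have e2 : Real.exp (4 / 3 / 1 - 1) * Real.exp (-(1 + (1 : ℝ)⁻¹) * 1) = x ^ 5 := by
        rw [hxdef, ← Real.exp_nat_mul, ← Real.exp_add]; norm_num
      have h3 : x ^ 3 ≤ (18 / 25) ^ 3 := by gcongr
      have h5 : x ^ 5 ≤ (18 / 25) ^ 5 := by gcongr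
      rw [e1]
      have : (1 : ℝ) * Real.exp (4 / 3 / 1 - 1) * (((1 - 1) / (1 + (1 : ℝ)⁻¹) + 1 / (1 + (1 : ℝ)⁻¹) ^ 2) *
          Real.exp (-(1 + (1 : ℝ)⁻¹) * 1)) = x ^ 5 / 4 := by
        rw [← e2]; ring
      rw [this]
      linarith
  · -- find the crossing parameter
    have hc : 1 / 3 ≤ L (1 / 3) := hL.ge _
    obtain ⟨b, hb, hbe⟩ : ∃ b, 1 ≤ b ∧ Eb b (1 / 3) = L (1 / 3) := by
      have hcont : ContinuousOn (fun b => Eb b (1 / 3)) (Icc 1 (3 * L (1 / 3))) := by
        unfold Eb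
        refine ContinuousOn.mul continuousOn_id (ContinuousOn.rexp ?_)
        refine ContinuousOn.sub (ContinuousOn.div continuousOn_const continuousOn_id ?_)
          continuousOn_const
        intro y hy; have := hy.1; exact (lt_of_lt_of_le one_pos this).ne'
      have hup : L (1 / 3) ≤ Eb (3 * L (1 / 3)) (1 / 3) := by
        unfold Eb
        have h1 : Real.exp (-1) ≤ Real.exp (1 / 3 / (3 * L (1 / 3)) - 1) := by
          apply Real.exp_le_exp.2
          have : 0 ≤ 1 / 3 / (3 * L (1 / 3)) := by positivity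
          linarith
        have h2 : 1 / 3 ≤ Real.exp (-1) := by
          have := Real.exp_neg_one_gt_d9; linarith
        nlinarith
      obtain ⟨b, hb, hbe⟩ := intermediate_value_Icc (by linarith) hcont ⟨h, hup⟩
      exact ⟨b, hb.1, hbe⟩
    have hb0 : 0 < b := by linarith
    have cmp : ∀ τ, 4 / 3 - b ≤ τ → kk τ * L (4 / 3 - τ) ≤ kk τ * Eb b (4 / 3 - τ) := by
      intro τ hτ
      rcases le_total τ 1 with h1 | h1
      · exact mul_le_mul_of_nonpos_left (hL.lower hb0 hbe.le ⟨by linarith, by linarith⟩)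
          (kk_nonpos h1)
      · exact mul_le_mul_of_nonneg_left (hL.upper hb0 (by linarith) hbe.ge (by linarith))
          (kk_nonneg h1)
    rcases le_total b (4 / 3) with hb1 | hb1
    · refine (hL.bound (b := b) (a := 4 / 3 - b) hb0 (by linarith) (by linarith)
        fun τ hτ => cmp τ hτ.le).trans ?_
      set s := 4 / 3 - b with hs
      have hs0 : 0 ≤ s := by linarith
      have e : Real.exp (4 / 3 / b - 1) * Real.exp (-(1 + b⁻¹) * s) = Real.exp (-s) := by
        rw [← Real.exp_add]; congr 1; rw [hs]; field_simp; ring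
      have e2 : (4 / 3 - s) * (-s * Real.exp (-s)) + (1 + s) * Real.exp (-s) - 1 +
          b * Real.exp (4 / 3 / b - 1) *
            (((s - 1) / (1 + b⁻¹) + 1 / (1 + b⁻¹) ^ 2) * Real.exp (-(1 + b⁻¹) * s)) =
          Real.exp (-s) * ((7 / 3 + 7 / 3 * b - b ^ 2) / (1 + b) ^ 2) - 1 := by
        have : b * Real.exp (4 / 3 / b - 1) *
            (((s - 1) / (1 + b⁻¹) + 1 / (1 + b⁻¹) ^ 2) * Real.exp (-(1 + b⁻¹) * s)) =
            b * ((s - 1) / (1 + b⁻¹) + 1 / (1 + b⁻¹) ^ 2) * Real.exp (-s) := by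
          rw [← e]; ring
        rw [this, hs]; field_simp; ring
      rw [e2]
      have hq := Real.quadratic_le_exp_of_nonneg hs0
      have h1 : Real.exp (-s) * (1 + s + s ^ 2 / 2) ≤ 1 := by
        calc Real.exp (-s) * (1 + s + s ^ 2 / 2) ≤ Real.exp (-s) * Real.exp s := by gcongr
          _ = 1 := by rw [← Real.exp_add]; simp
      have h2 : (7 / 3 + 7 / 3 * b - b ^ 2) / (1 + b) ^ 2 ≤ 17 / 25 * (1 + s + s ^ 2 / 2) := by
        rw [div_le_iff₀ (by positivity)]
        have hb' : b = 4 / 3 - s := by linarith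
        have hs1 : s ≤ 1 / 3 := by linarith
        rw [hb']
        nlinarith [mul_nonneg hs0 (sub_nonneg.2 hs1), sq_nonneg s, mul_nonneg hs0 hs0,
          mul_nonneg (mul_nonneg hs0 hs0) (sub_nonneg.2 hs1), pow_nonneg hs0 4]
      have h3 : Real.exp (-s) * ((7 / 3 + 7 / 3 * b - b ^ 2) / (1 + b) ^ 2) ≤ 17 / 25 := by
        calc _ ≤ Real.exp (-s) * (17 / 25 * (1 + s + s ^ 2 / 2)) := by gcongr
          _ ≤ _ := by linarith
      linarith
    · refine (hL.bound (b := b) (a := 0) hb0 le_rfl zero_le_one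
        fun τ hτ => cmp τ (by linarith)).trans ?_
      have e2 : (4 / 3 - 0) * (-0 * Real.exp (-0)) + (1 + 0) * Real.exp (-0) - 1 +
          b * Real.exp (4 / 3 / b - 1) *
            (((0 - 1) / (1 + b⁻¹) + 1 / (1 + b⁻¹) ^ 2) * Real.exp (-(1 + b⁻¹) * 0)) =
          -(Real.exp (4 / 3 / b - 1) / (1 + b⁻¹) ^ 2) := by
        simp only [neg_zero, mul_zero, Real.exp_zero]; field_simp; ring
      rw [e2, neg_le_neg_iff, le_div_iff₀ (by positivity)]
      set u := b⁻¹ with hu
      have hu0 : 0 < u := by positivity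
      have e3 : Real.exp (4 / 3 / b - 1) =
          Real.exp (-(1 / 3)) * (Real.exp ((2 * u - 1) / 3)) ^ 2 := by
        rw [← Real.exp_nat_mul, ← Real.exp_add]; congr 1; rw [hu]; push_cast; ring
      have h4 : 2 / 3 * (1 + u) ≤ Real.exp ((2 * u - 1) / 3) := by
        have := Real.add_one_le_exp ((2 * u - 1) / 3); linarith
      have h5 : (2 / 3 * (1 + u)) ^ 2 ≤ (Real.exp ((2 * u - 1) / 3)) ^ 2 := by gcongr
      rw [e3]
      nlinarith

end Crest.Agent.R280
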