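import Crest.Prelude.Def_TruncExpWeight
import Crest.Agent.R280.LC
import Crest.Agent.R280.Real

/-! The probabilistic part (helper for row 280). -/

set_option autoImplicit false

open MeasureTheory Set Filter Topology ProbabilityTheory
open scoped ENNReal
open Crest.AlgGeometry

namespace Crest.Agent.R280

lemma g_eq (y : ℝ) : truncExpWeight y = (1 + max y 0) * Real.exp (-max y 0) := by
  unfold truncExpWeight
  split_ifs with h
  · simp [max_eq_right h]
  · rw [max_eq_left (not_le.1 h).le]

lemma g_cont : Continuous truncExpWeight := by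
  have : truncExpWeight = fun y => (1 + max y 0) * Real.exp (-max y 0) := funext g_eq
  rw [this]; fun_prop

lemma g_abs_le (y : ℝ) : |truncExpWeight y| ≤ 1 := by
  rw [g_eq, abs_of_nonneg (by positivity), Real.exp_neg, ← div_eq_mul_inv,
    div_le_one (Real.exp_pos _)]
  have := Real.add_one_le_exp (max y 0); linarith

lemma g_lip (x y : ℝ) : |truncExpWeight x - truncExpWeight y| ≤ |x - y| := by
  have h := Convex.norm_image_sub_le_of_norm_hasDerivWithin_le (𝕜 := ℝ)
    (f := fun y : ℝ => (1 + y) * Real.exp (-y)) (f' := fun y => -y * Real.exp (-y)) (C := 1)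
    (s := Ici 0) (x := max y 0) (y := max x 0) ?_ ?_ (convex_Ici 0) (mem_Ici.2 (le_max_right _ _))
    (mem_Ici.2 (le_max_right _ _))
  · rw [g_eq, g_eq]
    simp only [Real.norm_eq_abs, one_mul] at h
    exact h.trans (abs_max_sub_max_le_abs _ _ _)
  · intro z _
    have := ((hasDerivAt_id z).const_add 1).mul (hasDerivAt_neg z).exp
    refine (HasDerivAt.congr_deriv this ?_).hasDerivWithinAt
    simp only [id]; ring
  · intro z hz
    have hz0 : 0 ≤ z := hz
    rw [Real.norm_eq_abs, neg_mul, abs_neg, abs_of_nonneg (by positivity), Real.exp_neg,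
      ← div_eq_mul_inv, div_le_one (Real.exp_pos _)]
    have := Real.add_one_le_exp z; linarith

lemma g_rep (y : ℝ) : truncExpWeight y = 1 + ∫ τ in Ioi (0 : ℝ), kk τ * max (y - τ) 0 := by
  unfold truncExpWeight
  split_ifs with h
  · rw [setIntegral_eq_zero_of_forall_eq_zero, add_zero]
    intro τ hτ
    rw [max_eq_right (by linarith [hτ.out]), mul_zero]
  · have hy := (not_le.1 h).le
    have e : ∫ τ in Ioi (0 : ℝ), kk τ * max (y - τ) 0 = ∫ τ in Ioc (0 : ℝ) y, kk τ * (y - τ) := by
      rw [setIntegral_eq_of_subset_of_forall_sdiff_eq_zero measurableSet_Ioi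
        (Ioc_subset_Ioi_self : Ioc (0 : ℝ) y ⊆ Ioi 0)]
      · refine setIntegral_congr_fun measurableSet_Ioc fun τ hτ => ?_
        simp only [max_eq_left (sub_nonneg.2 hτ.2)]
      · intro τ hτ
        have : y < τ := by
          by_contra hc
          exact hτ.2 ⟨hτ.1, not_lt.1 hc⟩
        rw [max_eq_right (by linarith), mul_zero]
    rw [e, ← intervalIntegral.integral_of_le hy, integral_kk_lin]
    ring

theorem abstract_bound {Ω : Type*} [MeasurableSpace Ω] (P : Measure Ω) [IsProbabilityMeasure P]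
    {S : Ω → ℝ} (hm : Measurable S) (hi : Integrable S P) (h0 : ∫ x, S x ∂P = 0)
    (hLC : LC fun t => ∫⁻ x, ENNReal.ofReal (t + S x) ∂P) :
    ∫ x, truncExpWeight (4 / 3 + S x) ∂P ≤ 1 - 4 / 9 * Real.exp (-(1 / 3)) := by
  set L : ℝ → ℝ := fun t => ∫ x, max (t + S x) 0 ∂P with hLdef
  have hint : ∀ t, Integrable (fun x => max (t + S x) 0) P := fun t =>
    ((integrable_const t).add hi).pos_part
  have hnn : ∀ t, 0 ≤ L t := fun t => integral_nonneg fun x => le_max_right _ _
  have hL : ∀ t, ∫⁻ x, ENNReal.ofReal (t + S x) ∂P = ENNReal.ofReal (L t) := by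
    intro t
    rw [hLdef, ofReal_integral_eq_lintegral_ofReal (hint t)
      (Eventually.of_forall fun x => le_max_right _ _)]
    refine lintegral_congr fun x => ?_
    rcases le_total (t + S x) 0 with h | h
    · rw [max_eq_right h, ENNReal.ofReal_of_nonpos h]; simp
    · rw [max_eq_left h]
  have hG : Good L := by
    refine ⟨?_, ?_, hnn, ?_, ?_⟩
    · refine (LipschitzWith.of_dist_le_mul (K := 1) fun s t => ?_).continuous
      rw [Real.dist_eq, Real.dist_eq, hLdef, ← integral_sub (hint s) (hint t)]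
      have := norm_integral_le_of_norm_le_const (μ := P)
        (f := fun x => max (s + S x) 0 - max (t + S x) 0) (C := |s - t|)
        (Eventually.of_forall fun x => by
          have := abs_max_sub_max_le_abs (s + S x) (t + S x) 0
          simpa using this)
      simpa using this
    · intro s t hst
      exact integral_mono (hint s) (hint t) fun x => max_le_max (by linarith) le_rfl
    · intro t
      calc t = ∫ x, t + S x ∂P := by rw [integral_add (integrable_const t) hi, h0]; simp
        _ ≤ L t := integral_mono ((integrable_const t).add hi) (hint t) fun x => le_max_left _ _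
    · intro x h hh
      have := hLC (x - h) (x + h) x x (by linarith) (by linarith) (by ring)
      simp only [hL] at this
      rw [← ENNReal.ofReal_mul (hnn _), ← ENNReal.ofReal_mul (hnn _)] at this
      exact (ENNReal.ofReal_le_ofReal_iff (mul_nonneg (hnn _) (hnn _))).1 this
  have hprod : Integrable (Function.uncurry fun (x : Ω) (τ : ℝ) => kk τ * max (4 / 3 + S x - τ) 0)
      (P.prod (volume.restrict (Ioi (0 : ℝ)))) := by
    have h1 : Integrable (fun z : Ω × ℝ => max (4 / 3 + S z.1) 0 * ‖kk z.2‖)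
        (P.prod (volume.restrict (Ioi (0 : ℝ)))) :=
      (hint (4 / 3)).mul_prod (integrableOn_kk 0).norm
    refine h1.mono' ?_ ?_
    · apply Measurable.aestronglyMeasurable
      unfold kk Function.uncurry
      fun_prop
    · have : ∀ᵐ z : Ω × ℝ ∂(P.prod (volume.restrict (Ioi (0 : ℝ)))), z.2 ∈ Ioi (0 : ℝ) :=
        Measure.quasiMeasurePreserving_snd.ae (ae_restrict_mem measurableSet_Ioi)
      filter_upwards [this] with z hz
      simp only [Function.uncurry, norm_mul]
      rw [mul_comm]
      gcongr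
      rw [Real.norm_eq_abs, abs_of_nonneg (le_max_right _ _)]
      exact max_le_max (by linarith [hz.out]) le_rfl
  calc ∫ x, truncExpWeight (4 / 3 + S x) ∂P
      = ∫ x, (1 + ∫ τ in Ioi (0 : ℝ), kk τ * max (4 / 3 + S x - τ) 0) ∂P := by
        simp only [g_rep]
    _ = 1 + ∫ x, (∫ τ in Ioi (0 : ℝ), kk τ * max (4 / 3 + S x - τ) 0) ∂P := by
        have h2 : Integrable (fun x => ∫ τ in Ioi (0 : ℝ), kk τ * max (4 / 3 + S x - τ) 0) P :=
          hprod.integral_prod_left
        rw [integral_add (integrable_const _) h2]; simp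
    _ = 1 + ∫ τ in Ioi (0 : ℝ), kk τ * L (4 / 3 - τ) := by
        rw [integral_integral_swap hprod]
        congr 1
        refine integral_congr_ae (Eventually.of_forall fun τ => ?_)
        simp only [hLdef]
        rw [integral_const_mul]
        congr 2
        ext x; congr 1; ring
    _ ≤ _ := by have := hG.main; linarith

lemma integral_mu (f : ℝ → ℝ) : ∫ x, f x ∂mu = ∫ x in Ioi (0 : ℝ), f x * Real.exp (-x) := by
  rw [mu, integral_withDensity_eq_integral_toReal_smul meas_dens (by simp)]
  refine integral_congr_ae (Eventually.of_forall fun x => ?_)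
  simp [ENNReal.toReal_ofReal (Real.exp_pos _).le, mul_comm]

lemma integrable_mu {f : ℝ → ℝ} (h : IntegrableOn (fun x => f x * Real.exp (-x)) (Ioi 0)) :
    Integrable f mu := by
  rw [mu, integrable_withDensity_iff meas_dens (by simp)]
  simp only [ENNReal.toReal_ofReal (Real.exp_pos _).le]
  exact h

lemma memLp_mu : MemLp (fun x : ℝ => x) 2 mu := by
  rw [memLp_two_iff_integrable_sq (by fun_prop)]
  apply integrable_mu
  have := Real.GammaIntegral_convergent (s := 3) (by norm_num)
  refine this.congr_fun (fun x _ => ?_) measurableSet_Ioi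
  have : (3 : ℝ) - 1 = (2 : ℕ) := by norm_num
  simp only [this, Real.rpow_natCast, mul_comm]

lemma mean_mu : ∫ x, x ∂mu = 1 := by
  rw [integral_mu]
  have := integral_lin_exp one_pos 1 0 0
  simpa using this

lemma PN_eq (N : ℕ) : PN N = (volume.restrict (Set.pi univ fun _ : Fin N => Ioi (0 : ℝ))).withDensity
    (fun x => ENNReal.ofReal (Real.exp (-∑ i, x i))) := by
  refine Measure.pi_eq fun s hs => ?_
  rw [withDensity_apply _ (MeasurableSet.univ_pi hs), volume_pi, Measure.restrict_pi_pi,
    Measure.restrict_pi_pi]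
  have e : ∀ x : Fin N → ℝ, Real.exp (-∑ i, x i) = ∏ i, Real.exp (-x i) := by
    intro x; rw [← Real.exp_sum, Finset.sum_neg_distrib]
  simp only [e]
  have hi : ∀ i, Integrable (fun x => Real.exp (-x)) ((volume.restrict (Ioi (0 : ℝ))).restrict (s i)) :=
    fun i => Integrable.restrict (integrableOn_exp_neg_Ioi 0)
  rw [← ofReal_integral_eq_lintegral_ofReal (Integrable.fintype_prod hi)
    (Eventually.of_forall fun x => Finset.prod_nonneg fun i _ => (Real.exp_pos _).le),
    integral_fintype_prod_eq_prod (fun (_ : Fin N) (x : ℝ) => Real.exp (-x)),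
    ENNReal.ofReal_prod_of_nonneg (fun i _ => integral_nonneg fun x => (Real.exp_pos _).le)]
  refine Finset.prod_congr rfl fun i _ => ?_
  rw [mu, withDensity_apply _ (hs i), ofReal_integral_eq_lintegral_ofReal (hi i)
    (Eventually.of_forall fun x => (Real.exp_pos _).le)]

lemma integral_PN (N : ℕ) (f : (Fin N → ℝ) → ℝ) :
    ∫ x in Set.pi univ (fun _ : Fin N => Ioi (0 : ℝ)), f x * Real.exp (-∑ i, x i) =
      ∫ x, f x ∂PN N := by
  rw [PN_eq, integral_withDensity_eq_integral_toReal_smul (by fun_prop) (by simp)]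
  refine integral_congr_ae (Eventually.of_forall fun x => ?_)
  simp [ENNReal.toReal_ofReal (Real.exp_pos _).le, mul_comm]

lemma mp_eval {N : ℕ} (i : Fin N) : MeasurePreserving (fun x : Fin N → ℝ => x i) (PN N) mu :=
  measurePreserving_eval (fun _ : Fin N => mu) i

lemma memLp_coord {N : ℕ} (i : Fin N) : MemLp (fun x : Fin N → ℝ => x i) 2 (PN N) :=
  memLp_mu.comp_measurePreserving (mp_eval i)

lemma mean_coord {N : ℕ} (i : Fin N) : ∫ x, x i ∂PN N = 1 := by
  rw [← mean_mu, ← (mp_eval i).map_eq, integral_map (mp_eval i).measurable.aemeasurable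
    (by fun_prop)]

lemma memLp_sum {N : ℕ} (a : Fin N → ℝ) : MemLp (fun x : Fin N → ℝ => ∑ i, a i * x i) 2 (PN N) :=
  memLp_finsetSum _ fun i _ => (memLp_coord i).const_mul (a i)

lemma mean_sum {N : ℕ} (a : Fin N → ℝ) : ∫ x, ∑ i, a i * x i ∂PN N = ∑ i, a i := by
  rw [integral_finsetSum _ fun i _ =>
    ((memLp_coord i).integrable one_le_two).const_mul (a i)]
  simp [integral_const_mul, mean_coord]

lemma var_sum {N : ℕ} (a : Fin N → ℝ) :
    Var[fun x : Fin N → ℝ => ∑ i, a i * x i; PN N] = ∑ i, a i ^ 2 * Var[fun x : ℝ => x; mu] := by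
  have := variance_sum_pi (μ := fun _ : Fin N => mu) (X := fun i x => a i * x)
    (fun i => memLp_mu.const_mul (a i))
  have e : ∀ i, Var[fun x : ℝ => a i * x; mu] = a i ^ 2 * Var[fun x : ℝ => x; mu] := fun i =>
    variance_const_mul (a i) (fun x : ℝ => x) mu
  simp only [e] at this
  rw [← this]
  congr 1
  ext x; simp

theorem upper (N : ℕ) (a : Fin N → ℝ) (ha : ∑ i, a i = 0) :
    ∫ x, truncExpWeight (4 / 3 + ∑ i, a i * x i) ∂PN N ≤ 1 - 4 / 9 * Real.exp (-(1 / 3)) :=
  abstract_bound (PN N) (by fun_prop) ((memLp_sum a).integrable one_le_two)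
    (by rw [mean_sum, ha]) (LC_ofReal.pi ENNReal.measurable_ofReal N a)

lemma extremal : ∫ x, truncExpWeight (2 * x - 2 / 3) ∂mu = 1 - 4 / 9 * Real.exp (-(1 / 3)) := by
  rw [integral_mu]
  have h13 : (0 : ℝ) ≤ 1 / 3 := by norm_num
  have e1 : EqOn (fun x => truncExpWeight (2 * x - 2 / 3) * Real.exp (-x))
      (fun x => Real.exp (-x)) (Ioc 0 (1 / 3)) := by
    intro x hx
    have : 2 * x - 2 / 3 ≤ 0 := by linarith [hx.2]
    simp [truncExpWeight, this]
  have e2 : EqOn (fun x => truncExpWeight (2 * x - 2 / 3) * Real.exp (-x))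
      (fun x => Real.exp (2 / 3) * ((2 * x + 1 / 3) * Real.exp (-3 * x))) (Ioi (1 / 3)) := by
    intro x hx
    have : ¬ 2 * x - 2 / 3 ≤ 0 := by have := hx.out; linarith
    simp only [truncExpWeight, this, if_false]
    have : Real.exp (-(2 * x - 2 / 3)) * Real.exp (-x) = Real.exp (2 / 3) * Real.exp (-3 * x) := by
      rw [← Real.exp_add, ← Real.exp_add]; congr 1; ring
    linear_combination (2 * x + 1 / 3) * this
  rw [← Ioc_union_Ioi_eq_Ioi h13, setIntegral_union (Ioc_disjoint_Ioi le_rfl) measurableSet_Ioi,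
    setIntegral_congr_fun measurableSet_Ioc e1, setIntegral_congr_fun measurableSet_Ioi e2,
    integral_const_mul, integral_lin_exp (by norm_num), ← intervalIntegral.integral_of_le h13,
    intervalIntegral.integral_comp_neg (fun x => Real.exp x), integral_exp]
  · have : Real.exp (2 / 3) * Real.exp (-3 * (1 / 3)) = Real.exp (-(1 / 3)) := by
      rw [← Real.exp_add]; norm_num
    simp only [neg_zero, Real.exp_zero]
    linear_combination (5 / 9) * this
  · refine IntegrableOn.congr_fun ?_ e1.symm measurableSet_Ioc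
    apply Continuous.integrableOn_Ioc; fun_prop
  · refine IntegrableOn.congr_fun ?_ e2.symm measurableSet_Ioi
    exact (integrableOn_lin_exp (by norm_num) _ _ _).const_mul _

lemma integrable_g {Ω : Type*} [MeasurableSpace Ω] (P : Measure Ω) [IsProbabilityMeasure P]
    {S : Ω → ℝ} (hm : Measurable S) : Integrable (fun x => truncExpWeight (S x)) P :=
  (integrable_const (1 : ℝ)).mono' (g_cont.measurable.comp hm).aestronglyMeasurable
    (Eventually.of_forall fun _ => g_abs_le _)

theorem lower (δ : ℝ) (hδ : 0 < δ) : ∃ (N : ℕ) (a : Fin N → ℝ), 1 ≤ N ∧ ∑ i, a i = 0 ∧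
    1 - 4 / 9 * Real.exp (-(1 / 3)) - δ <
      ∫ x, truncExpWeight (4 / 3 + ∑ i, a i * x i) ∂PN N := by
  set v := Var[fun x : ℝ => x; mu] with hv
  have hv0 : 0 ≤ v := variance_nonneg _ _
  obtain ⟨M, hM⟩ := exists_nat_gt (4 * v / δ ^ 2)
  have hM0 : (0 : ℝ) < M := lt_of_le_of_lt (by positivity) hM
  set c : Fin (M + 1) → ℝ := Fin.cons 0 fun _ => -2 / M with hc
  have hcs : ∑ i, c i = -2 := by
    simp [hc, Fin.sum_univ_succ]; field_simp
  refine ⟨M + 1, Fin.cons 2 fun _ => -2 / M, by omega, ?_, ?_⟩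
  · simp [Fin.sum_univ_succ]; field_simp; ring
  set Y : (Fin (M + 1) → ℝ) → ℝ := fun x => ∑ i, c i * x i with hY
  have hYm : ∫ x, Y x ∂PN (M + 1) = -2 := by rw [hY, mean_sum, hcs]
  have hYv : Var[Y; PN (M + 1)] = 4 * v / M := by
    rw [hY, var_sum, ← hv]
    simp [hc, Fin.sum_univ_succ]; field_simp; ring
  have hY2 : MemLp Y 2 (PN (M + 1)) := memLp_sum c
  have hsq : Integrable (fun x => (Y x + 2) ^ 2) (PN (M + 1)) :=
    (hY2.add (memLp_const 2)).integrable_sq
  have hsq' : ∫ x, (Y x + 2) ^ 2 ∂PN (M + 1) = 4 * v / M := by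
    rw [← hYv, variance_eq_integral hY2.aestronglyMeasurable.aemeasurable, hYm]
    simp
  have hpt : ∀ x : Fin (M + 1) → ℝ,
      truncExpWeight (2 * x 0 - 2 / 3) - (δ / 2 + (Y x + 2) ^ 2 / (2 * δ)) ≤
      truncExpWeight (4 / 3 + ∑ i, (Fin.cons 2 (fun _ => -2 / M) : Fin (M + 1) → ℝ) i * x i) := by
    intro x
    have e : 4 / 3 + ∑ i, (Fin.cons 2 (fun _ => -2 / M) : Fin (M + 1) → ℝ) i * x i =
        (2 * x 0 - 2 / 3) + (Y x + 2) := by
      simp only [hY, hc, Fin.sum_univ_succ, Fin.cons_zero, Fin.cons_succ]; ring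
    rw [e]
    have h1 := g_lip (2 * x 0 - 2 / 3) ((2 * x 0 - 2 / 3) + (Y x + 2))
    have h2 : |2 * x 0 - 2 / 3 - (2 * x 0 - 2 / 3 + (Y x + 2))| = |Y x + 2| := by
      rw [← abs_neg]; congr 1; ring
    rw [h2] at h1
    have h3 : |Y x + 2| ≤ δ / 2 + (Y x + 2) ^ 2 / (2 * δ) := by
      rw [← sq_abs (Y x + 2)]
      have : δ / 2 + |Y x + 2| ^ 2 / (2 * δ) - |Y x + 2| = (|Y x + 2| - δ) ^ 2 / (2 * δ) := by
        field_simp; ring
      have h' : 0 ≤ (|Y x + 2| - δ) ^ 2 / (2 * δ) := by positivity
      linarith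
    have := le_abs_self (truncExpWeight (2 * x 0 - 2 / 3) -
      truncExpWeight (2 * x 0 - 2 / 3 + (Y x + 2)))
    linarith
  have hg1 : Integrable (fun x : Fin (M + 1) → ℝ => truncExpWeight (2 * x 0 - 2 / 3)) (PN (M + 1)) :=
    integrable_g _ (by fun_prop)
  have herr : Integrable (fun x => δ / 2 + (Y x + 2) ^ 2 / (2 * δ)) (PN (M + 1)) :=
    (integrable_const _).add (hsq.div_const _)
  have hmono := integral_mono (hg1.sub herr) (integrable_g (PN (M + 1)) (by fun_prop)) hpt
  refine lt_of_lt_of_le ?_ hmono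
  have e0 : ∫ x, truncExpWeight (2 * x 0 - 2 / 3) ∂PN (M + 1) =
      1 - 4 / 9 * Real.exp (-(1 / 3)) := by
    rw [← extremal, ← (mp_eval (0 : Fin (M + 1))).map_eq,
      integral_map (mp_eval 0).measurable.aemeasurable]
    exact (g_cont.comp (by fun_prop)).aestronglyMeasurable
  simp only [Pi.sub_apply]
  rw [integral_sub hg1 herr, e0, integral_add (integrable_const _) (hsq.div_const _),
    integral_div (2 * δ), hsq']
  have : 4 * v / M / (2 * δ) < δ / 2 := by
    rw [div_lt_iff₀ (by positivity), div_lt_iff₀ hM0]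
    rw [div_lt_iff₀ (by positivity)] at hM
    nlinarith
  simp only [integral_const, probReal_univ, smul_eq_mul, one_mul]
  linarith

end Crest.Agent.R280
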